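import Vale.Agent.P174.H459.Star
import Vale.Agent.P174.T2.Iface

/-!
Package T2-MC: the Piola identity `PiolaStmt` for words in `π_j`, `v_j⁻¹ s_j v_j` and parameters.
-/

set_option linter.all false

namespace Vale.Agent.P174.T2

open Matrix Finset MvPolynomial

section Corr

variable {J P : Type*} {M : ℕ}

/-- move the component of a direction at `v_j` to `s_j` -/
noncomputable def corr (t : Sv J ⊕ P → UU M) (Y : Sv J ⊕ P → Mat M) : Sv J ⊕ P → Mat M :=
  Sum.elim (Sum.elim (fun j => Y (vp j)) (Sum.elim (fun _ => 0)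
    (fun j => Y (vs j) + ((t (vs j) : Mat M) * Y (vv j) * (((t (vs j))⁻¹ : UU M) : Mat M)
      - Y (vv j))))) (fun p => Y (Sum.inr p))

lemma fox_conj (t : Sv J ⊕ P → UU M) (Y : Sv J ⊕ P → Mat M) (j : J) :
    (fox t Y ((FreeGroup.of (vv j))⁻¹ * FreeGroup.of (vs j) * FreeGroup.of (vv j))).x
      = (((t (vv j))⁻¹ : UU M) : Mat M) * (Y (vs j) +
        ((t (vs j) : Mat M) * Y (vv j) * (((t (vs j))⁻¹ : UU M) : Mat M) - Y (vv j)))
        * (t (vv j) : Mat M) := by
  have h1 := fx_mul t Y ((FreeGroup.of (vv j))⁻¹ * FreeGroup.of (vs j)) (FreeGroup.of (vv j))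
  have h2 := fx_mul t Y ((FreeGroup.of (vv j))⁻¹) (FreeGroup.of (vs j))
  have h3 := fx_inv t Y (FreeGroup.of (vv j))
  rw [fx_of] at h1 h2 h3
  rw [h3] at h2
  rw [h2] at h1
  simp only [map_mul, map_inv, FreeGroup.lift_apply_of, _root_.mul_inv_rev, inv_inv,
    Submonoid.coe_mul] at h1
  change fx t Y _ = _
  rw [h1]
  simp only [Matrix.mul_add, Matrix.mul_sub, Matrix.add_mul, Matrix.sub_mul, Matrix.mul_assoc]
  abel

lemma fox_corr (t : Sv J ⊕ P → UU M) (Y : Sv J ⊕ P → Mat M) (u : FreeGroup ((J ⊕ J) ⊕ P)) :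
    fox t Y (kap u) = fox t (corr t Y) (kap u) := by
  have h : (fox t Y).comp kap = (fox t (corr t Y)).comp kap := by
    ext1 x
    rcases x with (j | j) | p
    · simp only [MonoidHom.comp_apply, kap, FreeGroup.lift_apply_of, Sum.elim_inl, fox_of]
      rfl
    · simp only [MonoidHom.comp_apply, kap, FreeGroup.lift_apply_of, Sum.elim_inl, Sum.elim_inr]
      apply TG.ext'
      · rw [fox_conj, fox_conj]
        simp only [corr, Sum.elim_inl, Sum.elim_inr, Matrix.mul_zero, Matrix.zero_mul, sub_zero,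
          add_zero]
      · rw [fox_u, fox_u]
    · simp only [MonoidHom.comp_apply, kap, FreeGroup.lift_apply_of, Sum.elim_inr, fox_of]
      rfl
  exact congrArg (fun g : FreeGroup ((J ⊕ J) ⊕ P) →* TG M => g u) h

lemma fx_corr (t : Sv J ⊕ P → UU M) (Y : Sv J ⊕ P → Mat M) (u : FreeGroup ((J ⊕ J) ⊕ P)) :
    fx t Y (kap u) = fx t (corr t Y) (kap u) := by
  unfold fx
  rw [fox_corr]

end Corr

section Blocks

variable {N L : ℕ}

lemma blk_apply (A : Mat N) (D : Mat L) (p q : Fin (N + L)) :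
    blk A D p q = if hp : (p : ℕ) < N then (if hq : (q : ℕ) < N then A ⟨p, hp⟩ ⟨q, hq⟩ else 0)
      else (if hq : (q : ℕ) < N then 0 else
        D ⟨p - N, by omega⟩ ⟨q - N, by omega⟩) := by
  unfold blk
  induction p using Fin.addCases with
  | left p =>
    induction q using Fin.addCases with
    | left q => simp
    | right q => simp
  | right p =>
    induction q using Fin.addCases with
    | left q => simp
    | right q => simp

/-- block diagonal -/
def BD (A : Mat (N + L)) : Prop := ∀ p q : Fin (N + L), ¬ ((p : ℕ) < N ↔ (q : ℕ) < N) → A p q = 0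

/-- block off-diagonal -/
def BO (A : Mat (N + L)) : Prop := ∀ p q : Fin (N + L), ((p : ℕ) < N ↔ (q : ℕ) < N) → A p q = 0

lemma BD.exists_blk {A : Mat (N + L)} (h : BD A) : ∃ (K1 : Mat N) (K2 : Mat L), A = blk K1 K2 := by
  refine ⟨Matrix.of fun p q => A (Fin.castAdd L p) (Fin.castAdd L q),
    Matrix.of fun p q => A (Fin.natAdd N p) (Fin.natAdd N q), ?_⟩
  ext p q
  rw [blk_apply]
  by_cases hp : (p : ℕ) < N
  · by_cases hq : (q : ℕ) < N
    · simp only [hp, hq, dif_pos, Matrix.of_apply]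
      rfl
    · simp only [hp, hq, dif_pos, dif_neg, not_false_iff]
      exact h p q (by simp [hp, hq])
  · by_cases hq : (q : ℕ) < N
    · simp only [hp, hq, dif_pos, dif_neg, not_false_iff]
      exact h p q (by simp [hp, hq])
    · simp only [hp, hq, dif_neg, not_false_iff, Matrix.of_apply]
      congr 1 <;> (apply Fin.ext; simp; omega)

lemma BO.mul {A B : Mat (N + L)} (hA : BO A) (hB : BO B) : BD (A * B) := by
  intro p s hps
  rw [Matrix.mul_apply]
  refine Finset.sum_eq_zero fun q _ => ?_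
  by_cases h1 : ((p : ℕ) < N ↔ (q : ℕ) < N)
  · rw [hA p q h1, zero_mul]
  · rw [hB q s (by tauto), mul_zero]

lemma BD.sub {A B : Mat (N + L)} (hA : BD A) (hB : BD B) : BD (A - B) := by
  intro p q h
  rw [Matrix.sub_apply, hA p q h, hB p q h, sub_zero]

/-- `s K s⁻¹ - K` has only entries in the second block -/
lemma conj_sub_apply (s : UU L) {K : Mat (N + L)} (hK : BD K) (p q : Fin (N + L))
    (h : ¬ (N ≤ (p : ℕ) ∧ N ≤ (q : ℕ))) :
    (((blkU ((1 : UU N), s) : UU (N + L)) : Mat (N + L)) * K *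
      (((blkU ((1 : UU N), s))⁻¹ : UU (N + L)) : Mat (N + L)) - K) p q = 0 := by
  obtain ⟨K1, K2, rfl⟩ := hK.exists_blk
  rw [← map_inv, show ((1 : UU N), s)⁻¹ = ((1 : UU N)⁻¹, s⁻¹) from rfl, coe_blkU, coe_blkU,
    ← blk_mul, ← blk_mul, Matrix.sub_apply, blk_apply, blk_apply]
  rw [inv_one]
  simp only [OneMemClass.coe_one, Matrix.one_mul, Matrix.mul_one]
  by_cases hp : (p : ℕ) < N
  · by_cases hq : (q : ℕ) < N
    · simp [hp, hq]
    · simp [hp, hq]
  · by_cases hq : (q : ℕ) < N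
    · simp [hp, hq]
    · exact absurd ⟨not_lt.1 hp, not_lt.1 hq⟩ h

end Blocks

section Hor

variable {J P : Type*} [Fintype J] [DecidableEq J] {N L : ℕ}

/-- the bracket of two basis directions -/
noncomputable def brk (N : ℕ) {L : ℕ} (a b : Ix J (N + L)) : Sv J ⊕ P → Mat (N + L) :=
  dirS N a * dirS N b - dirS N b * dirS N a

/-- the structure functions -/
noncomputable def sigS (t : Sv J ⊕ P → UU (N + L)) (a b : Ix J (N + L)) : Ix J (N + L) → ℂ :=
  fun d => if (d.2.1 : ℕ) < N ∧ (d.2.2 : ℕ) < N then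
      (brk N a b : Sv J ⊕ P → Mat (N + L)) (vp d.1) d.2.1 d.2.2
    else if N ≤ (d.2.1 : ℕ) ∧ N ≤ (d.2.2 : ℕ) then
      (corr t (brk N a b)) (vs d.1) d.2.1 d.2.2
    else 0

lemma brk_anti (a b : Ix J (N + L)) :
    (brk N a b : Sv J ⊕ P → Mat (N + L)) = - brk N b a := by
  unfold brk
  rw [neg_sub]

lemma corr_neg (t : Sv J ⊕ P → UU (N + L)) (Y : Sv J ⊕ P → Mat (N + L)) :
    corr t (-Y) = - corr t Y := by
  funext x
  rcases x with (j | j | j) | p
  · rfl
  · simp [corr]
  · simp only [corr, Sum.elim_inl, Sum.elim_inr, Pi.neg_apply, Matrix.mul_neg, Matrix.neg_mul]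
    abel
  · rfl

lemma sigS_anti (t : Sv J ⊕ P → UU (N + L)) (a b : Ix J (N + L)) :
    sigS t a b = - sigS t b a := by
  funext d
  simp only [sigS, Pi.neg_apply]
  rw [brk_anti a b, corr_neg]
  split_ifs
  · rfl
  · rfl
  · rw [neg_zero]

lemma single_comm_diag {M : ℕ} (A : Mat M) (p q : Fin M) :
    (A * Matrix.single p q (1 : ℂ) - Matrix.single p q (1 : ℂ) * A) p q = A p p - A q q := by
  rw [Matrix.sub_apply, Matrix.mul_single_apply_same, Matrix.single_mul_apply_same, mul_one,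
    one_mul]

lemma dirS_slot (a : Ix J (N + L)) :
    (dirS N a : Sv J ⊕ P → Mat (N + L)) (Sum.inl (slot N a)) = Matrix.single a.2.1 a.2.2 1 := by
  simp [dirS]

lemma dirS_ne (a : Ix J (N + L)) (x : Sv J) (h : x ≠ slot N a) :
    (dirS N a : Sv J ⊕ P → Mat (N + L)) (Sum.inl x) = 0 := by
  simp [dirS, h]

lemma slot_ll (a : Ix J (N + L)) (h : (a.2.1 : ℕ) < N ∧ (a.2.2 : ℕ) < N) :
    slot N a = Sum.inl a.1 := by
  simp only [slot, if_pos h]

lemma slot_hh (a : Ix J (N + L)) (h : N ≤ (a.2.1 : ℕ) ∧ N ≤ (a.2.2 : ℕ)) :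
    slot N a = Sum.inr (Sum.inr a.1) := by
  have h' : ¬ ((a.2.1 : ℕ) < N ∧ (a.2.2 : ℕ) < N) := by omega
  simp only [slot, if_neg h', if_pos h]

lemma slot_m (a : Ix J (N + L)) (h1 : ¬ ((a.2.1 : ℕ) < N ∧ (a.2.2 : ℕ) < N))
    (h2 : ¬ (N ≤ (a.2.1 : ℕ) ∧ N ≤ (a.2.2 : ℕ))) :
    slot N a = Sum.inr (Sum.inl a.1) := by
  simp only [slot, if_neg h1, if_neg h2]

/-- the trace condition -/
lemma sigS_trace (t : Sv J ⊕ P → UU (N + L)) (a : Ix J (N + L)) : ∑ b, sigS t a b b = 0 := by
  set A1 : J → Mat (N + L) := fun j => (dirS N a : Sv J ⊕ P → Mat (N + L)) (vp j) with hA1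
  set A2 : J → Mat (N + L) := fun j => (dirS N a : Sv J ⊕ P → Mat (N + L)) (vs j) with hA2
  have key : ∀ b : Ix J (N + L), sigS t a b b
      = (if (b.2.1 : ℕ) < N ∧ (b.2.2 : ℕ) < N then A1 b.1 b.2.1 b.2.1 - A1 b.1 b.2.2 b.2.2 else 0)
        + (if N ≤ (b.2.1 : ℕ) ∧ N ≤ (b.2.2 : ℕ) then A2 b.1 b.2.1 b.2.1 - A2 b.1 b.2.2 b.2.2
          else 0) := by
    intro b
    unfold sigS
    by_cases h1 : (b.2.1 : ℕ) < N ∧ (b.2.2 : ℕ) < N
    · have h2 : ¬ (N ≤ (b.2.1 : ℕ) ∧ N ≤ (b.2.2 : ℕ)) := by omega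
      rw [if_pos h1, if_pos h1, if_neg h2, add_zero]
      have hb : (dirS N b : Sv J ⊕ P → Mat (N + L)) (vp b.1) = Matrix.single b.2.1 b.2.2 1 := by
        have := dirS_slot (P := P) b
        rwa [slot_ll b h1] at this
      simp only [brk, Pi.sub_apply, Pi.mul_apply]
      rw [hb, single_comm_diag]
    · by_cases h2 : N ≤ (b.2.1 : ℕ) ∧ N ≤ (b.2.2 : ℕ)
      · rw [if_neg h1, if_neg h1, if_pos h2, if_pos h2, zero_add]
        have hb : (dirS N b : Sv J ⊕ P → Mat (N + L)) (vs b.1) = Matrix.single b.2.1 b.2.2 1 := by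
          have := dirS_slot (P := P) b
          rwa [slot_hh b h2] at this
        have hv : (dirS N b : Sv J ⊕ P → Mat (N + L)) (vv b.1) = 0 := by
          apply dirS_ne
          rw [slot_hh b h2]
          simp
        simp only [corr, brk, Pi.sub_apply, Pi.mul_apply, Sum.elim_inl, Sum.elim_inr, hv,
          Matrix.mul_zero, Matrix.zero_mul, sub_zero, add_zero]
        rw [hb, single_comm_diag]
      · rw [if_neg h1, if_neg h1, if_neg h2, if_neg h2, add_zero]
  simp only [key, Finset.sum_add_distrib, Fintype.sum_prod_type]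
  have hsym : ∀ (c : Fin (N + L) → Prop) [DecidablePred c] (A : Mat (N + L)),
      ∑ p : Fin (N + L), ∑ q : Fin (N + L), (if c p ∧ c q then A p p - A q q else 0) = 0 := by
    intro c _ A
    have h1 : ∑ p : Fin (N + L), ∑ q : Fin (N + L), (if c p ∧ c q then A p p - A q q else 0)
        = - ∑ p : Fin (N + L), ∑ q : Fin (N + L), (if c p ∧ c q then A p p - A q q else 0) := by
      conv_lhs => rw [Finset.sum_comm]
      rw [← Finset.sum_neg_distrib]
      refine Finset.sum_congr rfl fun p _ => ?_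
      rw [← Finset.sum_neg_distrib]
      refine Finset.sum_congr rfl fun q _ => ?_
      by_cases hp : c p <;> by_cases hq : c q <;> simp [hp, hq]
    exact self_eq_neg.mp h1
  have e1 : ∀ j : J, ∑ p : Fin (N + L), ∑ q : Fin (N + L),
      (if (p : ℕ) < N ∧ (q : ℕ) < N then A1 j p p - A1 j q q else 0) = 0 := fun j =>
    hsym (fun p => (p : ℕ) < N) (A1 j)
  have e2 : ∀ j : J, ∑ p : Fin (N + L), ∑ q : Fin (N + L),
      (if N ≤ (p : ℕ) ∧ N ≤ (q : ℕ) then A2 j p p - A2 j q q else 0) = 0 := fun j =>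
    hsym (fun p => N ≤ (p : ℕ)) (A2 j)
  simp only [e1, e2, Finset.sum_const_zero, add_zero]

/-- sums of basis directions -/
lemma sum_dirS (g : Ix J (N + L) → ℂ) (x : Sv J) (p q : Fin (N + L)) :
    (∑ d, g d • (dirS N d : Sv J ⊕ P → Mat (N + L))) (Sum.inl x) p q
      = ∑ j : J, (if x = slot N (j, p, q) then g (j, p, q) else 0) := by
  rw [Finset.sum_apply, Matrix.sum_apply, Fintype.sum_prod_type]
  refine Finset.sum_congr rfl fun j _ => ?_
  rw [Finset.sum_eq_single (p, q)]
  · simp only [Pi.smul_apply, Matrix.smul_apply, dirS, Sum.elim_inl, smul_eq_mul]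
    split_ifs
    · simp
    · simp
  · rintro ⟨r, s⟩ _ hne
    simp only [Pi.smul_apply, Matrix.smul_apply, dirS, Sum.elim_inl, smul_eq_mul]
    split_ifs
    · rw [Matrix.single_apply, if_neg, mul_zero]
      rintro ⟨rfl, rfl⟩
      exact hne rfl
    · simp
  · intro h; exact absurd (Finset.mem_univ _) h

lemma dirS_vv_BO (a : Ix J (N + L)) (j : J) :
    BO ((dirS N a : Sv J ⊕ P → Mat (N + L)) (vv j)) := by
  intro p q hpq
  by_cases h : (Sum.inr (Sum.inl j) : Sv J) = slot N a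
  · simp only [dirS, Sum.elim_inl, if_pos h]
    rw [Matrix.single_apply, if_neg]
    rintro ⟨h1, h2⟩
    by_cases hl : (a.2.1 : ℕ) < N ∧ (a.2.2 : ℕ) < N
    · rw [slot_ll a hl] at h; simp at h
    · by_cases hh : N ≤ (a.2.1 : ℕ) ∧ N ≤ (a.2.2 : ℕ)
      · rw [slot_hh a hh] at h; simp at h
      · subst h1; subst h2
        omega
  · rw [dirS_ne a _ h]; rfl

lemma dirS_vp_apply (a : Ix J (N + L)) (j : J) (p q : Fin (N + L))
    (h : ¬ ((p : ℕ) < N ∧ (q : ℕ) < N)) :
    (dirS N a : Sv J ⊕ P → Mat (N + L)) (vp j) p q = 0 := by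
  by_cases hs : (Sum.inl j : Sv J) = slot N a
  · simp only [dirS, Sum.elim_inl, if_pos hs]
    rw [Matrix.single_apply, if_neg]
    rintro ⟨h1, h2⟩
    by_cases hl : (a.2.1 : ℕ) < N ∧ (a.2.2 : ℕ) < N
    · subst h1; subst h2; exact h hl
    · by_cases hh : N ≤ (a.2.1 : ℕ) ∧ N ≤ (a.2.2 : ℕ)
      · rw [slot_hh a hh] at hs; simp at hs
      · rw [slot_m a hl hh] at hs; simp at hs
  · rw [dirS_ne a _ hs]; rfl

lemma dirS_vs_apply (a : Ix J (N + L)) (j : J) (p q : Fin (N + L))
    (h : ¬ (N ≤ (p : ℕ) ∧ N ≤ (q : ℕ))) :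
    (dirS N a : Sv J ⊕ P → Mat (N + L)) (vs j) p q = 0 := by
  by_cases hs : (Sum.inr (Sum.inr j) : Sv J) = slot N a
  · simp only [dirS, Sum.elim_inl, if_pos hs]
    rw [Matrix.single_apply, if_neg]
    rintro ⟨h1, h2⟩
    by_cases hl : (a.2.1 : ℕ) < N ∧ (a.2.2 : ℕ) < N
    · rw [slot_ll a hl] at hs; simp at hs
    · by_cases hh : N ≤ (a.2.1 : ℕ) ∧ N ≤ (a.2.2 : ℕ)
      · subst h1; subst h2; exact h hh
      · rw [slot_m a hl hh] at hs; simp at hs
  · rw [dirS_ne a _ hs]; rfl

/-- the brackets are horizontal after the correction -/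
lemma corr_brk (z : HS J N L) (ρ : P → UU (N + L)) (a b : Ix J (N + L)) :
    corr (Sum.elim (inc z) ρ) (brk N a b)
      = ∑ d, sigS (Sum.elim (inc z) ρ) a b d • (dirS N d : Sv J ⊕ P → Mat (N + L)) := by
  funext x
  rcases x with (j | j | j) | p
  · ext p q
    rw [sum_dirS]
    rw [Finset.sum_eq_single j]
    · by_cases h : (p : ℕ) < N ∧ (q : ℕ) < N
      · rw [slot_ll (j, p, q) h, if_pos rfl]
        simp only [sigS, if_pos h]
        rfl
      · have h0 : (Sum.inl j : Sv J) ≠ slot N (j, p, q) := by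
          by_cases hh : N ≤ (p : ℕ) ∧ N ≤ (q : ℕ)
          · rw [slot_hh (j, p, q) hh]; simp
          · rw [slot_m (j, p, q) h hh]; simp
        rw [if_neg h0]
        change (brk N a b : Sv J ⊕ P → Mat (N + L)) (vp j) p q = 0
        simp only [brk, Pi.sub_apply, Pi.mul_apply, Matrix.sub_apply, Matrix.mul_apply]
        rw [Finset.sum_eq_zero, Finset.sum_eq_zero, sub_zero]
        · intro r _
          by_cases hr : (p : ℕ) < N ∧ (r : ℕ) < N
          · rw [dirS_vp_apply (P := P) a j r q (by omega), mul_zero]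
          · rw [dirS_vp_apply (P := P) b j p r hr, zero_mul]
        · intro r _
          by_cases hr : (p : ℕ) < N ∧ (r : ℕ) < N
          · rw [dirS_vp_apply (P := P) b j r q (by omega), mul_zero]
          · rw [dirS_vp_apply (P := P) a j p r hr, zero_mul]
    · intro i _ hi
      rw [if_neg]
      intro h
      unfold slot at h
      split_ifs at h with h1 h2
      exact hi (Sum.inl_injective h).symm
    · intro h; exact absurd (Finset.mem_univ _) h
  · ext p q
    rw [sum_dirS]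
    rw [Finset.sum_eq_zero]
    · rfl
    · intro i _
      split_ifs with h
      · unfold slot at h
        split_ifs at h with h1 h2
        · simp at h
        · simp only [sigS]
          rw [if_neg h1, if_neg h2]
      · rfl
  · ext p q
    rw [sum_dirS]
    rw [Finset.sum_eq_single j]
    · by_cases h : N ≤ (p : ℕ) ∧ N ≤ (q : ℕ)
      · have h' : ¬ ((p : ℕ) < N ∧ (q : ℕ) < N) := by omega
        rw [slot_hh (j, p, q) h, if_pos rfl]
        simp only [sigS, if_neg h', if_pos h]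
      · have h0 : (Sum.inr (Sum.inr j) : Sv J) ≠ slot N (j, p, q) := by
          by_cases hh : (p : ℕ) < N ∧ (q : ℕ) < N
          · rw [slot_ll (j, p, q) hh]; simp
          · rw [slot_m (j, p, q) hh h]; simp
        rw [if_neg h0]
        have hbd : BD ((brk N a b : Sv J ⊕ P → Mat (N + L)) (vv j)) :=
          ((dirS_vv_BO a j).mul (dirS_vv_BO b j)).sub ((dirS_vv_BO b j).mul (dirS_vv_BO a j))
        have hc := conj_sub_apply (z.2.2 j) hbd p q h
        have hs : (brk N a b : Sv J ⊕ P → Mat (N + L)) (vs j) p q = 0 := by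
          simp only [brk, Pi.sub_apply, Pi.mul_apply, Matrix.sub_apply, Matrix.mul_apply]
          rw [Finset.sum_eq_zero, Finset.sum_eq_zero, sub_zero]
          · intro r _
            by_cases hr : N ≤ (p : ℕ) ∧ N ≤ (r : ℕ)
            · rw [dirS_vs_apply (P := P) a j r q (by omega), mul_zero]
            · rw [dirS_vs_apply (P := P) b j p r hr, zero_mul]
          · intro r _
            by_cases hr : N ≤ (p : ℕ) ∧ N ≤ (r : ℕ)
            · rw [dirS_vs_apply (P := P) b j r q (by omega), mul_zero]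
            · rw [dirS_vs_apply (P := P) a j p r hr, zero_mul]
        change ((brk N a b : Sv J ⊕ P → Mat (N + L)) (vs j) + _) p q = 0
        rw [Matrix.add_apply, hs, zero_add]
        exact hc
    · intro i _ hi
      rw [if_neg]
      intro h
      unfold slot at h
      split_ifs at h with h1 h2
      · exact hi (Sum.inr_injective (Sum.inr_injective h)).symm
      · simp at h
    · intro h; exact absurd (Finset.mem_univ _) h
  · rw [Finset.sum_apply]
    simp only [corr, brk, dirS, Sum.elim_inr, Pi.sub_apply, Pi.mul_apply, Pi.smul_apply,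
      Matrix.mul_zero, sub_zero, smul_zero, Finset.sum_const_zero]

end Hor

section Main

variable {J P : Type*} [Fintype J] [DecidableEq J] {N L : ℕ}

lemma fx_brk (w0 : FreeGroup ((J ⊕ J) ⊕ P)) (z : HS J N L) (ρ : P → UU (N + L))
    (a b : Ix J (N + L)) (p q : Fin (N + L)) :
    fx (Sum.elim (inc z) ρ) (brk N a b) (kap w0) p q
      = ∑ d, fx (Sum.elim (inc z) ρ) (dirS N d) (kap w0) p q
        * sigS (Sum.elim (inc z) ρ) a b d := by
  rw [fx_corr, corr_brk]
  have : fx (Sum.elim (inc z) ρ)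
      (∑ d, sigS (Sum.elim (inc z) ρ) a b d • (dirS N d : Sv J ⊕ P → Mat (N + L))) (kap w0)
      = ∑ d, sigS (Sum.elim (inc z) ρ) a b d • fx (Sum.elim (inc z) ρ) (dirS N d) (kap w0) := by
    change fxl _ _ (∑ d, _) = _
    rw [map_sum]
    simp only [map_smul]
    rfl
  rw [this, Matrix.sum_apply]
  refine Finset.sum_congr rfl fun d _ => ?_
  rw [Matrix.smul_apply, smul_eq_mul, mul_comm]

end Main

/-- **T2-MC** -/
theorem piolaS (J P : Type) [Fintype J] [DecidableEq J] : PiolaStmt J P := by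
  intro N L w hw z ρ B F
  obtain ⟨w0, hw0⟩ := hw
  set t : Sv J ⊕ P → UU (N + L) := Sum.elim (inc z) ρ with ht
  set Yz : Sv J ⊕ P → Mat (N + L) := Sum.elim (fun _ => 0) B with hYz
  refine piolaG (K := ℂ) (fun a => TT (dirS N a)) (TT Yz) (ev t) adL adL_trace adL_anti
    (sigS t) (sigS_anti t) (sigS_trace t)
    (DpolyS N w) (vpolyS w Yz) (sub w F)
    (fun c => ev (fun i => FreeGroup.lift t (w i)) (TT (dirT c) F)) ?_ ?_ ?_ ?_
  · intro a
    rw [chain, TT_expand]
    refine Finset.sum_congr rfl fun c _ => ?_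
    rw [DpolyS, Matrix.of_apply, ev_Dp_rep]
  · rw [chain, TT_expand]
    refine Finset.sum_congr rfl fun c _ => ?_
    rw [vpolyS, ev_Dp_rep]
  · intro a b
    funext c
    obtain ⟨j, p, q⟩ := c
    have h1 : ev t (TT (dirS N a) (DpolyS N w (j, p, q) b))
        - ev t (TT (dirS N b) (DpolyS N w (j, p, q) a))
        = _ := MC_rep t (dirS N a) (dirS N b) (w j) p q
    rw [Pi.sub_apply, Pi.sub_apply, h1, adL_mulVec]
    congr 1
    · rw [Matrix.sub_apply, Matrix.mul_apply, Matrix.mul_apply]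
      simp only [DpolyS, Matrix.of_apply, ev_Dp_rep]
    · have h2 := fx_brk (w0 j) z ρ a b p q
      rw [← hw0] at h2
      rw [Matrix.mulVec, dotProduct]
      refine h2.trans (Finset.sum_congr rfl fun d _ => ?_)
      rw [Matrix.map_apply, DpolyS, Matrix.of_apply, ev_Dp_rep]
  · intro b
    funext c
    obtain ⟨j, p, q⟩ := c
    have h1 : ev t (TT Yz (DpolyS N w (j, p, q) b)) - ev t (TT (dirS N b) (vpolyS w Yz (j, p, q)))
        = _ := MC_rep t Yz (dirS N b) (w j) p q
    have h2 : Yz * dirS N b - dirS N b * Yz = 0 := by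
      funext v
      rcases v with i | i
      · simp [hYz]
      · simp [hYz, dirS]
    rw [h2] at h1
    have h3 : fx t 0 (w j) = 0 := map_zero (fxl t (w j))
    rw [Pi.sub_apply, h1, adL_mulVec, h3, Matrix.zero_apply, sub_zero,
      Matrix.sub_apply, Matrix.mul_apply, Matrix.mul_apply]
    simp only [DpolyS, vpolyS, Matrix.of_apply, ev_Dp_rep]

end Vale.Agent.P174.T2
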