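import Vale.Agent.P174.Bdl.All

/-!
Generalised Piola identity with structure functions (package T2-STAR).
-/

namespace Vale.Agent.P174

open Matrix Finset

section PiolaG

variable {ι : Type*} [Fintype ι] [DecidableEq ι] {K : Type*} [Field K] [CharZero K]

/-- The algebraic core of the Piola identity; the source brackets are given by an arbitrary
antisymmetric trace free family `sig`. -/
theorem star_identityG (ad : (ι → K) →ₗ[K] Matrix ι ι K)
    (htr : ∀ x, (ad x).trace = 0) (hanti : ∀ x y, ad x *ᵥ y = - (ad y *ᵥ x))
    (sig : ι → ι → ι → K) (hsanti : ∀ a b, sig a b = - sig b a) (hstr : ∀ a, ∑ b, sig a b b = 0)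
    (D : Matrix ι ι K) (v : ι → K) (A : ι → ι → ι → K)
    (hA : ∀ a b, A a b - A b a = ad (fun i => D i a) *ᵥ (fun i => D i b) - D *ᵥ sig a b) :
    ∑ a, ∑ b, (if a = b then 0 else ((D.updateCol a v).updateCol b (A a b)).det) = 0 := by
  set S := ∑ a, ∑ b, (if a = b then 0 else ((D.updateCol a v).updateCol b (A a b)).det) with hS
  -- antisymmetrization
  have hswap : S = - ∑ a, ∑ b, (if a = b then 0 else ((D.updateCol a v).updateCol b (A b a)).det) := by
    rw [hS, Finset.sum_comm, ← Finset.sum_neg_distrib]
    refine Finset.sum_congr rfl fun a _ => ?_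
    rw [← Finset.sum_neg_distrib]
    refine Finset.sum_congr rfl fun b _ => ?_
    rcases eq_or_ne a b with rfl | hab
    · simp
    · rw [if_neg hab.symm, if_neg hab, det_update_swap D hab.symm, Matrix.updateCol_comm _ hab.symm]
  have h2S : S + S = ∑ a, ∑ b, (if a = b then 0 else
      ((D.updateCol a v).updateCol b (A a b - A b a)).det) := by
    nth_rewrite 2 [hswap]
    rw [hS, ← sub_eq_add_neg, ← Finset.sum_sub_distrib]
    refine Finset.sum_congr rfl fun a _ => ?_
    rw [← Finset.sum_sub_distrib]
    refine Finset.sum_congr rfl fun b _ => ?_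
    rcases eq_or_ne a b with rfl | hab
    · simp
    · simp only [if_neg hab, ← Matrix.cramer_apply, map_sub, Pi.sub_apply]
  have h1 : ∀ a, ∑ b, (if a = b then 0 else
      ((D.updateCol a v).updateCol b (ad (fun i => D i a) *ᵥ (fun i => D i b))).det)
      = (D.updateCol a (ad v *ᵥ (fun i => D i a))).det := by
    intro a
    have key := sum_det_updateCol_mul (D.updateCol a v) (ad (fun i => D i a))
    rw [htr, zero_mul, ← Finset.add_sum_erase _ _ (Finset.mem_univ a)] at key
    rw [← Finset.add_sum_erase _ _ (Finset.mem_univ a)]
    have e1 : ((D.updateCol a v).updateCol a (fun i => (ad (fun i => D i a) * D.updateCol a v) i a)).det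
        = - (D.updateCol a (ad v *ᵥ (fun i => D i a))).det := by
      have : (fun i => (ad (fun i => D i a) * D.updateCol a v) i a) = - (ad v *ᵥ (fun i => D i a)) := by
        rw [← hanti]
        ext i
        simp only [Matrix.mul_apply, updateCol_self, mulVec, dotProduct]
      rw [this, ← Matrix.cramer_apply, map_neg, Pi.neg_apply, Matrix.cramer_apply]
      simp only [updateCol_idem]
    have e2 : ∀ b ∈ Finset.univ.erase a, ((D.updateCol a v).updateCol b
        (fun i => (ad (fun i => D i a) * D.updateCol a v) i b)).det
        = (if a = b then 0 else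
      ((D.updateCol a v).updateCol b (ad (fun i => D i a) *ᵥ (fun i => D i b))).det) := by
      intro b hb
      have hba : b ≠ a := Finset.ne_of_mem_erase hb
      rw [if_neg hba.symm]
      congr 2
      ext i
      simp only [Matrix.mul_apply, Matrix.updateCol_ne hba, mulVec, dotProduct]
    rw [Finset.sum_congr rfl e2, e1] at key
    simp only [if_true, zero_add]
    linear_combination key
  have h1' : ∑ a, ∑ b, (if a = b then 0 else
      ((D.updateCol a v).updateCol b (ad (fun i => D i a) *ᵥ (fun i => D i b))).det) = 0 := by
    rw [Finset.sum_congr rfl fun a _ => h1 a]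
    have := sum_det_updateCol_mul D (ad v)
    rw [htr, zero_mul] at this
    rw [← this]
    refine Finset.sum_congr rfl fun a _ => ?_
    congr 2
  have hsself : ∀ a, sig a a = 0 := fun a => by
    have := hsanti a a
    have h2 : (2 : K) • (sig a a) = 0 := by
      rw [two_smul]; nth_rewrite 1 [this]; simp
    exact (smul_eq_zero.mp h2).resolve_left two_ne_zero
  have h2' : ∑ a, ∑ b, (if a = b then 0 else
      ((D.updateCol a v).updateCol b (D *ᵥ sig a b)).det) = 0 := by
    have hterm : ∀ a b, (if a = b then 0 else
        ((D.updateCol a v).updateCol b (D *ᵥ sig a b)).det)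
        = sig a b b * (D.updateCol a v).det
          + sig b a a * (D.updateCol b v).det := by
      intro a b
      have q2 : sig a b a = - sig b a a := by
        rw [hsanti a b]; rfl
      rcases eq_or_ne a b with rfl | hab
      · have : sig a a a = 0 := congrFun (hsself a) a
        simp only [↓reduceIte, this, zero_mul, add_zero]
      · rw [if_neg hab, det_update_mulVec D hab, q2]; ring
    simp only [hterm, Finset.sum_add_distrib]
    rw [Finset.sum_comm (f := fun a b => sig b a a * (D.updateCol b v).det)]
    simp only [← Finset.sum_mul, hstr, zero_mul, sum_const_zero, add_zero]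
  have : S + S = 0 := by
    rw [h2S]
    have : ∀ a b, (if a = b then 0 else
      ((D.updateCol a v).updateCol b (A a b - A b a)).det)
      = (if a = b then 0 else
      ((D.updateCol a v).updateCol b (ad (fun i => D i a) *ᵥ (fun i => D i b))).det)
      - (if a = b then 0 else
      ((D.updateCol a v).updateCol b (D *ᵥ sig a b)).det) := by
      intro a b
      rcases eq_or_ne a b with rfl | hab
      · simp
      · simp only [hA, ← cramer_apply, map_sub, Pi.sub_apply, if_neg hab]
    simp only [this, Finset.sum_sub_distrib, h1', h2', sub_zero]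
  have h2 : (2 : K) * S = 0 := by rw [two_mul]; exact this
  exact (mul_eq_zero.mp h2).resolve_left two_ne_zero

variable {R : Type*} [CommRing R] [Algebra K R]

/-- Generalised Piola identity.  The brackets of the source directions `T a`, `T b` act on the
Jacobian like `D *ᵥ sig a b`, where `sig` is antisymmetric and trace free (it may depend on the
point `ev`).  The parameter direction `Z` commutes with the `T a`. -/
theorem piolaG (T : ι → Derivation K R R) (Z : Derivation K R R) (ev : R →+* K)
    (ad : (ι → K) →ₗ[K] Matrix ι ι K)
    (htr : ∀ x, (ad x).trace = 0) (hanti : ∀ x y, ad x *ᵥ y = - (ad y *ᵥ x))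
    (sig : ι → ι → ι → K) (hsanti : ∀ a b, sig a b = - sig b a) (hstr : ∀ a, ∑ b, sig a b b = 0)
    (D : Matrix ι ι R) (v : ι → R) (F : R) (g : ι → K)
    (hF1 : ∀ a, ev (T a F) = ∑ c, g c * ev (D c a))
    (hF2 : ev (Z F) = ∑ c, g c * ev (v c))
    (hMC1 : ∀ a b, (fun c => ev (T a (D c b))) - (fun c => ev (T b (D c a)))
      = ad (fun c => ev (D c a)) *ᵥ (fun c => ev (D c b))
        - (D.map ev) *ᵥ sig a b)
    (hMC2 : ∀ b, (fun c => ev (Z (D c b))) - (fun c => ev (T b (v c)))
      = ad (fun c => ev (v c)) *ᵥ (fun c => ev (D c b))) :
    ev (Z (F * D.det)) = ∑ a, ev (T a (F * (D.updateCol a v).det)) := by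
  set E : Matrix ι ι K := D.map ev with hE
  set w : ι → K := fun c => ev (v c) with hw
  have hEc : ∀ a, (fun c => ev (D c a)) = fun c => E c a := fun a => rfl
  have hdet : ev D.det = E.det := by rw [RingHom.map_det]; rfl
  have hCa : ∀ a, ev (D.updateCol a v).det = (E.updateCol a w).det := by
    intro a
    rw [RingHom.map_det]
    congr 1
    ext i j
    rcases eq_or_ne j a with rfl | h
    · simp [hw]
    · simp [h, hE]
  -- derivative of the cofactors
  have hCder : ∀ a, ev (T a (D.updateCol a v).det)
      = (E.updateCol a (fun c => ev (T a (v c)))).det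
        + ∑ b, (if a = b then 0 else ((E.updateCol a w).updateCol b (fun c => ev (T a (D c b)))).det) := by
    intro a
    rw [ev_derivation_det]
    have hmap : (D.updateCol a v).map ev = E.updateCol a w := by
      ext i j
      rcases eq_or_ne j a with rfl | h
      · simp [hw]
      · simp [h, hE]
    rw [hmap, ← Finset.add_sum_erase _ _ (Finset.mem_univ a),
      ← Finset.add_sum_erase (s := Finset.univ) (a := a) (h := Finset.mem_univ a)
        (f := fun b => (if a = b then 0 else
          ((E.updateCol a w).updateCol b (fun c => ev (T a (D c b)))).det))]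
    simp only [if_true, zero_add]
    congr 1
    · simp only [updateCol_self, updateCol_idem]
    · refine Finset.sum_congr rfl fun b hb => ?_
      have hba : b ≠ a := Finset.ne_of_mem_erase hb
      rw [if_neg hba.symm]
      congr 2
      ext c
      rw [Matrix.updateCol_ne hba]
  have hstar := star_identityG ad htr hanti sig hsanti hstr E w (fun a b c => ev (T a (D c b)))
    (fun a b => by simpa only [hEc] using hMC1 a b)
  have hZ : ev (Z D.det) = ∑ a, (E.updateCol a (fun c => ev (T a (v c)))).det := by
    rw [ev_derivation_det]
    have h0 := sum_det_updateCol_mul E (ad w)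
    rw [htr, zero_mul] at h0
    have h1 : ∀ b, (E.updateCol b (fun i => (ad w * E) i b)).det
        = (E.updateCol b (fun c => ev (Z (D c b)))).det
          - (E.updateCol b (fun c => ev (T b (v c)))).det := by
      intro b
      have : (fun i => (ad w * E) i b) = (fun c => ev (Z (D c b))) - (fun c => ev (T b (v c))) := by
        rw [hMC2]
        rfl
      rw [this]
      simp only [← Matrix.cramer_apply, map_sub, Pi.sub_apply]
    simp only [h1, Finset.sum_sub_distrib] at h0
    exact sub_eq_zero.mp h0
  have hCsum : ∑ a, (E.updateCol a w).det * (∑ c, g c * E c a) = E.det * ∑ c, g c * w c := by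
    have h2 := Matrix.mulVec_cramer E w
    have h3 : ∀ c, ∑ a, E c a * (E.updateCol a w).det = E.det * w c := by
      intro c
      have := congrFun h2 c
      simpa only [mulVec, dotProduct, cramer_apply, Pi.smul_apply, smul_eq_mul] using this
    calc ∑ a, (E.updateCol a w).det * (∑ c, g c * E c a)
        = ∑ a, ∑ c, g c * (E c a * (E.updateCol a w).det) := by
          refine Finset.sum_congr rfl fun a _ => ?_
          rw [Finset.mul_sum]
          refine Finset.sum_congr rfl fun c _ => ?_
          ring
      _ = ∑ c, g c * ∑ a, (E c a * (E.updateCol a w).det) := by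
          rw [Finset.sum_comm]
          simp only [Finset.mul_sum]
      _ = _ := by
          simp only [h3, Finset.mul_sum]
          refine Finset.sum_congr rfl fun c _ => ?_
          ring
  have hLHS : ev (Z (F * D.det)) = ev F * ev (Z D.det) + E.det * ∑ c, g c * w c := by
    rw [Derivation.leibniz, map_add, smul_eq_mul, smul_eq_mul, map_mul, map_mul, hF2, hdet]
  have hRHS : ∀ a, ev (T a (F * (D.updateCol a v).det))
      = ev F * ev (T a (D.updateCol a v).det) + (E.updateCol a w).det * ∑ c, g c * E c a := by
    intro a
    rw [Derivation.leibniz, map_add, smul_eq_mul, smul_eq_mul, map_mul, map_mul, hF1, hCa]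
    rfl
  rw [hLHS]
  simp only [hRHS, Finset.sum_add_distrib, hCsum, ← Finset.mul_sum, hCder]
  rw [hstar, add_zero, hZ]

end PiolaG

end Vale.Agent.P174
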